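import Mathlib
import Vale.Agent.P296.Defs
import Vale.Agent.P296.Model

/-!
The cocycle of `E m` on `X m`, from local holomorphic choices of representatives.
-/

open Set
open scoped Manifold ContDiff Topology

noncomputable section

namespace Vale.Agent.P296

variable {m : ℕ}

theorem Rep.Rel.chi {p q : Rep m} {b e : ℂ} (hu : q.u = e * b ^ (3 * m) * p.u)
    (hv : q.v = e * b ^ (3 * m) * p.v) (c : Fin 2) :
    q.chi c = e * b ^ (3 * m) * p.chi c := by
  unfold Rep.chi
  split <;> assumption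

theorem Rep.inBase_rel {p q : Rep m} (h : Rep.Rel p q) {i : Idx} (hi : p.InBase i) :
    q.InBase i := by
  obtain ⟨a, b, e, ha, hb, he, h1, h2, h3, h4⟩ := h
  have he0 : e ≠ 0 := by rintro rfl; norm_num at he
  refine ⟨?_, ?_, ?_⟩
  · rw [h1]; exact mul_ne_zero ha hi.1
  · rw [h2]; exact mul_ne_zero hb hi.2.1
  · rw [Rep.Rel.chi h3 h4]
    exact mul_ne_zero (mul_ne_zero he0 (pow_ne_zero _ hb)) hi.2.2

theorem Rep.qfac_ne {p : Rep m} {i : Idx} (hi : p.InBase i) : p.qfac i ≠ 0 := by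
  unfold Rep.qfac
  exact mul_ne_zero (mul_ne_zero hi.1 (pow_ne_zero _ hi.2.1))
    (div_ne_zero hi.2.2 (pow_ne_zero _ hi.2.1))

theorem Rep.kfac_ne {p : Rep m} {i : Idx} (hi : p.InBase i) : p.kfac i ≠ 0 :=
  div_ne_zero (pow_ne_zero _ hi.1) (pow_ne_zero _ hi.2.1)

theorem Rep.qfac_rel {p q : Rep m} {a b e : ℂ} (hb : b ≠ 0) (hz : q.z = a • p.z)
    (hs : q.s = b • p.s) (hu : q.u = e * b ^ (3 * m) * p.u) (hv : q.v = e * b ^ (3 * m) * p.v)
    (i : Idx) : q.qfac i = (a * e * b ^ (2 * m + 1)) * p.qfac i := by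
  unfold Rep.qfac
  rw [Rep.Rel.chi hu hv, hz, hs]
  simp only [Pi.smul_apply, smul_eq_mul, mul_pow]
  have : (b ^ (3 * m)) ≠ 0 := pow_ne_zero _ hb
  field_simp

theorem Rep.kfac_rel {p q : Rep m} {a b : ℂ} (hz : q.z = a • p.z) (hs : q.s = b • p.s)
    (i : Idx) : q.kfac i = (a ^ (4 * m + 1) / b ^ (m - 1)) * p.kfac i := by
  unfold Rep.kfac
  rw [hz, hs]
  simp only [Pi.smul_apply, smul_eq_mul, mul_pow]
  ring

theorem Alg.dD_scale (z t : Fin 2 → ℂ) (a b : ℂ) :
    Alg.dD (fun k => a * z k) (fun k => b * t k) = a ^ 4 * b ^ 4 / b ^ 10 * Alg.dD z t := by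
  unfold Alg.dD
  simp only [Finset.sum_range_succ, Finset.sum_range_zero]
  ring

theorem Rep.dfac_rel {p q : Rep m} {a b : ℂ} (hz : q.z = a • p.z) (hs : q.s = b • p.s)
    (i i' : Fin 2) :
    q.dfac i i' = a ^ (4 * m) * b ^ (4 * m) / b ^ (10 * m) * p.dfac i i' := by
  have h : Alg.dD (fun k => q.z k ^ m) (fun k => q.s k ^ m) =
      a ^ (4 * m) * b ^ (4 * m) / b ^ (10 * m) *
        Alg.dD (fun k => p.z k ^ m) (fun k => p.s k ^ m) := by
    rw [hz, hs]
    simp only [Pi.smul_apply, smul_eq_mul, mul_pow]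
    rw [Alg.dD_scale]
    simp only [← pow_mul, Nat.mul_comm m]
  unfold Rep.dfac
  split_ifs
  · simp
  · exact h
  · rw [h]; ring

theorem Rep.trans_rel (hm : 1 ≤ m) {p q : Rep m} (h : Rep.Rel p q) (i j : Idx) :
    q.trans i j = p.trans i j := by
  obtain ⟨a, b, e, ha, hb, he, h1, h2, h3, h4⟩ := h
  have he0 : e ≠ 0 := by rintro rfl; norm_num at he
  have hq : a * e * b ^ (2 * m + 1) ≠ 0 := mul_ne_zero (mul_ne_zero ha he0) (pow_ne_zero _ hb)
  have hk : a ^ (4 * m + 1) / b ^ (m - 1) ≠ 0 :=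
    div_ne_zero (pow_ne_zero _ ha) (pow_ne_zero _ hb)
  have key : a ^ (4 * m) * b ^ (4 * m) / b ^ (10 * m) * (e * b ^ (3 * m)) *
      (a * e * b ^ (2 * m + 1)) = a ^ (4 * m + 1) / b ^ (m - 1) := by
    obtain ⟨l, rfl⟩ := Nat.exists_eq_add_of_le hm
    rw [show 1 + l - 1 = l by omega]
    field_simp
    rw [he]
    ring
  have e20 : ∀ x : ℂ, ∀ y z w : ℂ,
      (a ^ (4 * m) * b ^ (4 * m) / b ^ (10 * m) * x) * (e * b ^ (3 * m) * y) *
        (a * e * b ^ (2 * m + 1) * z) / (a ^ (4 * m + 1) / b ^ (m - 1) * w) = x * y * z / w := by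
    intro x y z w
    calc (a ^ (4 * m) * b ^ (4 * m) / b ^ (10 * m) * x) * (e * b ^ (3 * m) * y) *
          (a * e * b ^ (2 * m + 1) * z) / (a ^ (4 * m + 1) / b ^ (m - 1) * w)
        = ((a ^ (4 * m) * b ^ (4 * m) / b ^ (10 * m) * (e * b ^ (3 * m)) *
            (a * e * b ^ (2 * m + 1))) * (x * y * z)) /
            (a ^ (4 * m + 1) / b ^ (m - 1) * w) := by ring
      _ = x * y * z / w := by rw [key, mul_div_mul_left _ _ hk]
  unfold Rep.trans
  rw [Rep.qfac_rel hb h1 h2 h3 h4 i, Rep.qfac_rel hb h1 h2 h3 h4 j, Rep.kfac_rel h1 h2 i,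
    Rep.kfac_rel h1 h2 j, Rep.dfac_rel h1 h2, h3, h4, mul_div_mul_left _ _ hq,
    mul_div_mul_left _ _ hk, e20, e20]

theorem Rep.trans_self {p : Rep m} {i : Idx} (hi : p.InBase i) : p.trans i i = 1 := by
  unfold Rep.trans Rep.dfac
  rw [if_pos rfl, div_self (Rep.qfac_ne hi), div_self (Rep.kfac_ne hi)]
  ext a b
  fin_cases a <;> fin_cases b <;> simp

theorem Rep.dfac_add (p : Rep m) (a b c : Fin 2) : p.dfac a b + p.dfac b c = p.dfac a c := by
  unfold Rep.dfac
  fin_cases a <;> fin_cases b <;> fin_cases c <;> simp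

theorem Rep.trans_comp {p : Rep m} {i j k : Idx} (hj : p.InBase j) :
    p.trans j k * p.trans i j = p.trans i k := by
  have h1 := Rep.qfac_ne hj
  have h2 := Rep.kfac_ne hj
  have h3 := Rep.dfac_add p i.2.1 j.2.1 k.2.1
  unfold Rep.trans
  rw [← h3]
  ext a b
  fin_cases a <;> fin_cases b <;> simp [Matrix.mul_apply, Fin.sum_univ_three] <;>
    field_simp <;> ring

/-! ### Descent to the quotient -/

/-- A chosen representative. -/
def X.rep (x : X m) : Rep m := Quotient.out (s := repSetoid m) x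

theorem X.rep_pt (x : X m) : (X.rep x).pt = x := Quotient.out_eq (s := repSetoid m) x

theorem X.rel_rep {x : X m} {p : Rep m} (h : p.pt = x) : Rep.Rel (X.rep x) p :=
  Quotient.exact (s := repSetoid m) ((X.rep_pt x).trans h.symm)

def baseSet (m : ℕ) (i : Idx) : Set (X m) := {x | (X.rep x).InBase i}

theorem inBase_iff {x : X m} {p : Rep m} (h : p.pt = x) (i : Idx) :
    p.InBase i ↔ x ∈ baseSet m i :=
  ⟨fun hp => Rep.inBase_rel (X.rel_rep h).symm hp, fun hx => Rep.inBase_rel (X.rel_rep h) hx⟩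

theorem isOpen_baseSet (i : Idx) : IsOpen (baseSet m i) := by
  have hc : Continuous (Rep.tuple : Rep m → _) := continuous_induced_dom
  have hpre : (Rep.pt : Rep m → X m) ⁻¹' baseSet m i = {p | p.InBase i} := by
    ext p; exact (inBase_iff rfl i).symm
  show IsOpen ((Rep.pt : Rep m → X m) ⁻¹' baseSet m i)
  rw [hpre]
  have h1 : Continuous fun p : Rep m => p.z i.1 :=
    (continuous_apply i.1).comp (continuous_fst.comp hc)
  have h2 : Continuous fun p : Rep m => p.s i.2.1 :=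
    (continuous_apply i.2.1).comp (continuous_fst.comp (continuous_snd.comp hc))
  have h3 : Continuous fun p : Rep m => p.chi i.2.2 := by
    unfold Rep.chi
    split_ifs
    · exact continuous_fst.comp (continuous_snd.comp (continuous_snd.comp hc))
    · exact continuous_snd.comp (continuous_snd.comp (continuous_snd.comp hc))
  exact (isOpen_ne.preimage h1).inter ((isOpen_ne.preimage h2).inter (isOpen_ne.preimage h3))

theorem Rep.exists_index (hm : 1 ≤ m) (p : Rep m) : ∃ i, p.InBase i := by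
  obtain ⟨a, ha⟩ := Function.ne_iff.mp p.hz
  obtain ⟨b, hb⟩ := Function.ne_iff.mp p.hs
  by_cases hu : p.u = 0
  · refine ⟨(a, b, 1), ha, hb, ?_⟩
    simp only [Rep.chi, Fin.isValue, one_ne_zero, if_false]
    intro hv
    have h6 : 6 * m ≠ 0 := by omega
    have e1 := p.hu
    have e2 := p.hv
    rw [hu, zero_pow two_ne_zero] at e1
    rw [hv, zero_pow two_ne_zero] at e2
    have s0 : p.s 0 = 0 := by
      apply (pow_eq_zero_iff h6).mp
      linear_combination (e1 - e2) / 2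
    have s1 : p.s 1 = 0 := by
      apply (pow_eq_zero_iff h6).mp
      linear_combination (-e1 - e2) / 2
    exact p.hs (funext fun k => by fin_cases k <;> assumption)
  · exact ⟨(a, b, 0), ha, hb, by simpa [Rep.chi] using hu⟩

def indexAt (hm : 1 ≤ m) (x : X m) : Idx := (Rep.exists_index hm (X.rep x)).choose

theorem mem_baseSet_at (hm : 1 ≤ m) (x : X m) : x ∈ baseSet m (indexAt hm x) :=
  (Rep.exists_index hm (X.rep x)).choose_spec

/-- The transition matrix at a point. -/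
def transX (i j : Idx) (x : X m) : Matrix (Fin 3) (Fin 3) ℂ := (X.rep x).trans i j

theorem transX_eq (hm : 1 ≤ m) {x : X m} {p : Rep m} (h : p.pt = x) (i j : Idx) :
    transX i j x = p.trans i j := (Rep.trans_rel hm (X.rel_rep h) i j).symm

/-- The linear map of a matrix, as a continuous linear function of the matrix entries. -/
def matCLM : (Fin 3 → Fin 3 → ℂ) →L[ℂ] ((Fin 3 → ℂ) →L[ℂ] (Fin 3 → ℂ)) :=
  LinearMap.toContinuousLinearMap
    ((LinearMap.toContinuousLinearMap : ((Fin 3 → ℂ) →ₗ[ℂ] (Fin 3 → ℂ)) ≃ₗ[ℂ] _).toLinearMap.comp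
      (Matrix.toLin' : Matrix (Fin 3) (Fin 3) ℂ ≃ₗ[ℂ] _).toLinearMap)

theorem matCLM_apply (M : Matrix (Fin 3) (Fin 3) ℂ) (v : Fin 3 → ℂ) :
    matCLM M v = M.mulVec v := rfl

/-- The space of homogeneous coordinates. -/
abbrev T : Type := (Fin 2 → ℂ) × (Fin 2 → ℂ) × ℂ × ℂ

section Geometry

variable [ChartedSpace (Cn 2) (X m)]

theorem contMDiffOn_transX (hm : 1 ≤ m) (hg : GeomSpec m) (i j : Idx) (a b : Fin 3) :
    ContMDiffOn 𝓘(ℂ, Cn 2) 𝓘(ℂ, ℂ) ω (fun x => transX i j x a b)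
      (baseSet m i ∩ baseSet m j) := by
  intro x hx
  obtain ⟨U, L, hUo, hxU, hLpt, hLs⟩ := hg.local_lift x
  have hev : ∀ y ∈ U, transX i j y a b = (L y).trans i j a b :=
    fun y hy => by rw [transX_eq hm (hLpt y hy)]
  -- the entries are rational functions of the lifted coordinates
  have hi : (L x).InBase i := (inBase_iff (hLpt x hxU) i).mpr hx.1
  have hj : (L x).InBase j := (inBase_iff (hLpt x hxU) j).mpr hx.2
  let chiT : T → Fin 2 → ℂ := fun t c => if c = 0 then t.2.2.1 else t.2.2.2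
  let qT : T → Idx → ℂ := fun t i =>
    t.1 i.1 * t.2.1 i.2.1 ^ (2 * m + 1) * (chiT t i.2.2 / t.2.1 i.2.1 ^ (3 * m))
  let kT : T → Idx → ℂ := fun t i => t.1 i.1 ^ (4 * m + 1) / t.2.1 i.2.1 ^ (m - 1)
  let dT : T → Fin 2 → Fin 2 → ℂ := fun t b b' =>
    if b = b' then 0 else if b = 0 then Alg.dD (fun k => t.1 k ^ m) (fun k => t.2.1 k ^ m)
    else - Alg.dD (fun k => t.1 k ^ m) (fun k => t.2.1 k ^ m)
  let M : T → Matrix (Fin 3) (Fin 3) ℂ := fun t =>
    !![qT t i / qT t j, 0, 0;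
       0, qT t i / qT t j, 0;
       dT t i.2.1 j.2.1 * t.2.2.1 * qT t i / kT t j,
         dT t i.2.1 j.2.1 * t.2.2.2 * qT t i / kT t j,
         kT t i / kT t j]
  set t0 : T := (L x).tuple with ht0
  have pz : ∀ k, ContDiffAt ℂ ω (fun t : T => t.1 k) t0 := fun k => by fun_prop
  have ps : ∀ k, ContDiffAt ℂ ω (fun t : T => t.2.1 k) t0 := fun k => by fun_prop
  have pu : ContDiffAt ℂ ω (fun t : T => t.2.2.1) t0 := by fun_prop
  have pv : ContDiffAt ℂ ω (fun t : T => t.2.2.2) t0 := by fun_prop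
  have pc : ∀ c : Fin 2, ContDiffAt ℂ ω (fun t : T => chiT t c) t0 := by
    intro c
    by_cases hc : c = 0 <;> simp only [chiT, hc, if_true, if_false] <;> assumption
  have pq : ∀ i : Idx, t0.2.1 i.2.1 ≠ 0 → ContDiffAt ℂ ω (fun t : T => qT t i) t0 :=
    fun i h => ((pz _).mul ((ps _).pow _)).mul ((pc _).div ((ps _).pow _) (pow_ne_zero _ h))
  have pk : ∀ i : Idx, t0.2.1 i.2.1 ≠ 0 → ContDiffAt ℂ ω (fun t : T => kT t i) t0 :=
    fun i h => ((pz _).pow _).div ((ps _).pow _) (pow_ne_zero _ h)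
  have pd : ContDiffAt ℂ ω (fun t : T => dT t i.2.1 j.2.1) t0 := by
    by_cases hb : i.2.1 = j.2.1
    · simp only [dT, hb, if_true]; exact contDiffAt_const
    · have h01 : t0.2.1 0 ≠ 0 ∧ t0.2.1 1 ≠ 0 := by
        have h1 : (L x).s i.2.1 ≠ 0 := hi.2.1
        have h2 : (L x).s j.2.1 ≠ 0 := hj.2.1
        revert h1 h2 hb
        generalize i.2.1 = p
        generalize j.2.1 = q
        intro hb h1 h2
        fin_cases p <;> fin_cases q <;> simp_all [t0, Rep.tuple]
      have : ContDiffAt ℂ ω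
          (fun t : T => Alg.dD (fun k => t.1 k ^ m) (fun k => t.2.1 k ^ m)) t0 := by
        unfold Alg.dD
        refine ContDiffAt.div ?_ ((((ps 0).pow _).mul ((ps 1).pow _)).pow _) ?_
        · apply ContDiffAt.sum
          intro l _
          exact ((((pz 0).pow _).mul ((ps 1).pow _)).pow _).mul
            ((((pz 1).pow _).mul ((ps 0).pow _)).pow _)
        · exact pow_ne_zero _ (mul_ne_zero (pow_ne_zero _ h01.1) (pow_ne_zero _ h01.2))
      by_cases h0 : i.2.1 = 0
      · simp only [dT, if_neg hb, if_pos h0]; exact this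
      · simp only [dT, if_neg hb, if_neg h0]; exact this.neg
  have qj : qT t0 j ≠ 0 := Rep.qfac_ne hj
  have kj : kT t0 j ≠ 0 := Rep.kfac_ne hj
  have si : t0.2.1 i.2.1 ≠ 0 := hi.2.1
  have sj : t0.2.1 j.2.1 ≠ 0 := hj.2.1
  have key : ContDiffAt ℂ ω (fun t : T => M t a b) t0 := by
    fin_cases a <;> fin_cases b <;> simp [M]
    · exact (pq i si).div (pq j sj) qj
    · exact contDiffAt_const
    · exact contDiffAt_const
    · exact contDiffAt_const
    · exact (pq i si).div (pq j sj) qj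
    · exact contDiffAt_const
    · exact ((pd.mul pu).mul (pq i si)).div (pk j sj) kj
    · exact ((pd.mul pv).mul (pq i si)).div (pk j sj) kj
    · exact (pk i si).div (pk j sj) kj
  have hLx : ContMDiffAt 𝓘(ℂ, Cn 2) 𝓘(ℂ, T) ω (fun y => (L y).tuple) x :=
    hLs.contMDiffAt (hUo.mem_nhds hxU)
  have hcomp : ContMDiffAt 𝓘(ℂ, Cn 2) 𝓘(ℂ, ℂ) ω (fun y => M (L y).tuple a b) x :=
    key.contMDiffAt.comp x hLx
  refine (hcomp.congr_of_eventuallyEq ?_).contMDiffWithinAt
  filter_upwards [hUo.mem_nhds hxU] with y hy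
  rw [hev y hy]
  rfl

/-- The bundle `E m`. -/
def bundle (hm : 1 ≤ m) (hg : GeomSpec m) : VectorBundleCore ℂ (X m) (Fin 3 → ℂ) Idx where
  baseSet := baseSet m
  isOpen_baseSet := isOpen_baseSet
  indexAt := indexAt hm
  mem_baseSet_at := mem_baseSet_at hm
  coordChange i j x := matCLM (transX i j x)
  coordChange_self i x hx v := by
    show matCLM (transX i i x) v = v
    rw [matCLM_apply, transX, Rep.trans_self hx, Matrix.one_mulVec]
  continuousOn_coordChange i j := by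
    have h : ContinuousOn (fun x => (fun a b => transX i j x a b : Fin 3 → Fin 3 → ℂ))
        (baseSet m i ∩ baseSet m j) :=
      continuousOn_pi.mpr fun a => continuousOn_pi.mpr fun b =>
        (contMDiffOn_transX hm hg i j a b).continuousOn
    exact matCLM.continuous.comp_continuousOn h
  coordChange_comp i j k x hx v := by
    show matCLM (transX j k x) (matCLM (transX i j x) v) = matCLM (transX i k x) v
    rw [matCLM_apply, matCLM_apply, matCLM_apply, Matrix.mulVec_mulVec, transX, transX,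
      Rep.trans_comp hx.1.2]
    rfl

theorem bundle_coordChange (hm : 1 ≤ m) (hg : GeomSpec m) (i j : Idx) (x : X m) (v : Fin 3 → ℂ) :
    (bundle hm hg).coordChange i j x v = (transX i j x).mulVec v := rfl

theorem bundle_isContMDiff (hm : 1 ≤ m) (hg : GeomSpec m) :
    (bundle hm hg).IsContMDiff 𝓘(ℂ, Cn 2) ω := by
  refine ⟨fun i j => ?_⟩
  have h : ContMDiffOn 𝓘(ℂ, Cn 2) 𝓘(ℂ, Fin 3 → Fin 3 → ℂ) ω
      (fun x => (fun a b => transX i j x a b : Fin 3 → Fin 3 → ℂ))
      (baseSet m i ∩ baseSet m j) :=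
    contMDiffOn_pi_space.mpr fun a => contMDiffOn_pi_space.mpr fun b =>
      contMDiffOn_transX hm hg i j a b
  exact matCLM.contMDiff.comp_contMDiffOn h

end Geometry

end Vale.Agent.P296
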