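import Mathlib

/-! An analytic function that is homogeneous of degree one is linear. -/

open scoped ContDiff Topology

namespace Vale.Agent.P296

theorem homogeneous_one_eq_fderiv {V : Type*} [NormedAddCommGroup V] [NormedSpace ℂ V]
    {f : V → ℂ} (hf : DifferentiableAt ℂ f 0) (hom : ∀ (c : ℂ) v, f (c • v) = c * f v) (v : V) :
    f v = fderiv ℂ f 0 v := by
  have h1 : HasDerivAt (fun c : ℂ => c • v) v 0 := by
    simpa using (hasDerivAt_id (0 : ℂ)).smul_const v
  have hf0 : HasFDerivAt f (fderiv ℂ f 0) ((0 : ℂ) • v) := by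
    rw [zero_smul]; exact hf.hasFDerivAt
  have h2 : HasDerivAt (fun c : ℂ => f (c • v)) (fderiv ℂ f 0 v) 0 :=
    hf0.comp_hasDerivAt (0 : ℂ) h1
  have h3 : HasDerivAt (fun c : ℂ => f (c • v)) (f v) 0 := by
    simp only [hom]
    simpa using (hasDerivAt_id (0 : ℂ)).mul_const (f v)
  exact h3.unique h2

end Vale.Agent.P296
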