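import Mathlib
import Vale.Agent.P296.Bundle.Core

/-! The monomial family, and the projective embedding of `X m`. -/

open Set
open scoped Manifold ContDiff Topology

noncomputable section

namespace Vale.Agent.P296

variable {m : ℕ}

theorem Rep.mono_rel {p q : Rep m} {a b e : ℂ} (he : e ^ 2 = 1) (hz : q.z = a • p.z)
    (hs : q.s = b • p.s) (hu : q.u = e * b ^ (3 * m) * p.u) (hv : q.v = e * b ^ (3 * m) * p.v)
    {A B : ℕ} (hB : 6 * m ≤ B) (l : MonoIdx m A B) :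
    q.mono A B l = a ^ A * b ^ B * p.mono A B l := by
  obtain ⟨⟨i, hi⟩, j⟩ := l
  obtain ⟨i', rfl⟩ := Nat.exists_eq_add_of_le (Nat.lt_succ_iff.mp hi)
  cases j with
  | inl j =>
    obtain ⟨j, hj⟩ := j
    obtain ⟨j', rfl⟩ := Nat.exists_eq_add_of_le (Nat.lt_succ_iff.mp hj)
    simp only [Rep.mono, hz, hs, Pi.smul_apply, smul_eq_mul, mul_pow, Nat.add_sub_cancel_left,
      pow_add]
    ring
  | inr j =>
    obtain ⟨j, hj⟩ := j
    obtain ⟨j', hj'⟩ := Nat.exists_eq_add_of_le (Nat.lt_succ_iff.mp hj)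
    have hb : b ^ B = b ^ (3 * m) * b ^ (3 * m) * (b ^ j * b ^ j') := by
      rw [← pow_add, ← pow_add, ← pow_add]; congr 1; omega
    simp only [Rep.mono, hz, hs, hu, hv, Pi.smul_apply, smul_eq_mul, mul_pow,
      Nat.add_sub_cancel_left, pow_add, hb, hj']
    linear_combination (a ^ i * p.z 0 ^ i * (a ^ i' * p.z 1 ^ i') * (b ^ (3 * m) * b ^ (3 * m)) *
      p.u * p.v * (b ^ j * p.s 0 ^ j * (b ^ j' * p.s 1 ^ j'))) * he

theorem Rep.mono_ne (p : Rep m) (A B : ℕ) : ∃ l, p.mono A B l ≠ 0 := by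
  obtain ⟨a, ha⟩ := Function.ne_iff.mp p.hz
  obtain ⟨b, hb⟩ := Function.ne_iff.mp p.hs
  refine ⟨(if a = 0 then ⟨A, by omega⟩ else ⟨0, by omega⟩,
    .inl (if b = 0 then ⟨B, by omega⟩ else ⟨0, by omega⟩)), ?_⟩
  fin_cases a <;> fin_cases b <;> simp_all [Rep.mono]

theorem contDiff_mono (A B : ℕ) (l : MonoIdx m A B) :
    ∃ f : T → ℂ, ContDiff ℂ ω f ∧ ∀ p : Rep m, p.mono A B l = f p.tuple := by
  obtain ⟨i, j⟩ := l
  cases j with
  | inl j =>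
    refine ⟨fun t => t.1 0 ^ (i : ℕ) * t.1 1 ^ (A - i) *
      (t.2.1 0 ^ (j : ℕ) * t.2.1 1 ^ (B - j)), by fun_prop, fun p => rfl⟩
  | inr j =>
    refine ⟨fun t => t.1 0 ^ (i : ℕ) * t.1 1 ^ (A - i) *
      (t.2.2.1 * t.2.2.2 * (t.2.1 0 ^ (j : ℕ) * t.2.1 1 ^ (B - 6 * m - j))), by fun_prop,
      fun p => rfl⟩

section Geometry

variable [ChartedSpace (Cn 2) (X m)]

theorem contMDiffOn_mono {U : Set (X m)} {L : X m → Rep m}
    (hL : ContMDiffOn 𝓘(ℂ, Cn 2) 𝓘(ℂ, T) ω (fun y => (L y).tuple) U) (A B : ℕ)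
    (l : MonoIdx m A B) :
    ContMDiffOn 𝓘(ℂ, Cn 2) 𝓘(ℂ, ℂ) ω (fun y => (L y).mono A B l) U := by
  obtain ⟨f, hf, hfe⟩ := contDiff_mono A B l
  exact (hf.contMDiff.comp_contMDiffOn hL).congr fun y _ => hfe _

theorem isProjective (hg : GeomSpec m) : IsProjectiveEmbeddable 2 (X m) := by
  have hB : 6 * m ≤ 6 * m + 1 := Nat.le_succ _
  let B := 6 * m + 1
  obtain ⟨N, hN⟩ : ∃ N, Fintype.card (MonoIdx m 1 B) = N + 1 :=
    Nat.exists_eq_succ_of_ne_zero Fintype.card_ne_zero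
  let e : MonoIdx m 1 B ≃ Fin (N + 1) := Fintype.equivFinOfCardEq hN
  let vec : Rep m → Fin (N + 1) → ℂ := fun p k => p.mono 1 B (e.symm k)
  have hne : ∀ p : Rep m, vec p ≠ 0 := by
    intro p h
    obtain ⟨l, hl⟩ := p.mono_ne 1 B
    exact hl (by simpa [vec] using congrFun h (e l))
  refine ⟨N, fun x => Projectivization.mk ℂ (vec (X.rep x)) (hne _), ?_, ?_⟩
  · intro x y h
    obtain ⟨c, hc⟩ := (Projectivization.mk_eq_mk_iff' ℂ _ _ _ _).mp h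
    rw [← X.rep_pt x, ← X.rep_pt y]
    refine hg.mono_inj 1 B le_rfl le_rfl _ _ c fun l => ?_
    simpa [vec] using (congrFun hc (e l)).symm
  intro x
  obtain ⟨U, L, hUo, hxU, hLpt, hLs⟩ := hg.local_lift x
  have hc : ∀ k, ContMDiffOn 𝓘(ℂ, Cn 2) 𝓘(ℂ, ℂ) ω (fun y => (L y).mono 1 B (e.symm k)) U :=
    fun k => contMDiffOn_mono hLs 1 B (e.symm k)
  refine ⟨U, fun y => vec (L y), hUo, hxU, contMDiffOn_pi_space.mpr hc, ?_, ?_⟩
  · intro y hy
    refine ⟨hne _, (Projectivization.mk_eq_mk_iff' ℂ _ _ _ _).mpr ?_⟩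
    obtain ⟨a, b, d, ha, hb, hd, h1, h2, h3, h4⟩ := (X.rel_rep (hLpt y hy)).symm
    refine ⟨a ^ 1 * b ^ B, funext fun k => ?_⟩
    simp only [vec, Pi.smul_apply, smul_eq_mul]
    exact (Rep.mono_rel hd h1 h2 h3 h4 hB _).symm
  · intro ξ c h
    simp only [holDeriv] at h
    refine hg.mono_immersive 1 B le_rfl le_rfl U L hUo hLpt hLs x hxU ξ c fun l => ?_
    have hd : MDifferentiableAt 𝓘(ℂ, Cn 2) 𝓘(ℂ, Fin (N + 1) → ℂ) (fun y => vec (L y)) x :=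
      ((contMDiffOn_pi_space.mpr hc).contMDiffAt (hUo.mem_nhds hxU)).mdifferentiableAt
        (by simp)
    let pr : (Fin (N + 1) → ℂ) →L[ℂ] ℂ := ContinuousLinearMap.proj (e l)
    have h2 := hd.hasMFDerivAt
    have h3 := (pr.hasMFDerivAt (x := vec (L x))).comp x h2
    have h4 : (pr ∘ fun y => vec (L y)) = fun y => (L y).mono 1 B l := by
      funext y; simp [pr, vec]
    rw [h4] at h3
    rw [h3.mfderiv]
    show pr (mfderiv 𝓘(ℂ, Cn 2) 𝓘(ℂ, Fin (N + 1) → ℂ) (fun y => vec (L y)) x ξ) = _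
    rw [h]
    show pr (c • vec (L x)) = _
    simp [pr, vec]

end Geometry

end Vale.Agent.P296
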