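import Mathlib
import Vale.Agent.P296.Bundle.Mono
import Vale.Agent.P296.Bundle.Linear

/-! Ampleness of `E m` from the algebraic core. -/

open Set
open scoped Manifold ContDiff Topology

noncomputable section

namespace Vale.Agent.P296

variable {m : ℕ}

/-! ### Sections upstairs -/

/-- The point downstairs. -/
def Rep.zpow' (p : Rep m) : Fin 2 → ℂ := fun k => p.z k ^ m

/-- The point downstairs. -/
def Rep.spow' (p : Rep m) : Fin 2 → ℂ := fun k => p.s k ^ m

theorem Rep.onCone (p : Rep m) : Alg.OnCone p.zpow' p.spow' p.u p.v where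
  hz h := p.hz (funext fun k => eq_zero_of_pow_eq_zero (congrFun h k))
  ht h := p.hs (funext fun k => eq_zero_of_pow_eq_zero (congrFun h k))
  hu := by rw [p.hu]; simp only [Rep.spow', ← pow_mul, Nat.mul_comm m 6]
  hv := by rw [p.hv]; simp only [Rep.spow', ← pow_mul, Nat.mul_comm m 6]

theorem Rep.spow'_ne {p : Rep m} {i : Idx} (hi : p.InBase i) : p.spow' i.2.1 ≠ 0 :=
  pow_ne_zero _ hi.2.1

/-- The functional in the unnormalised frame. -/
def Rep.toPhi (p : Rep m) (i : Idx) (w : Fin 3 → ℂ) : Fin 3 → ℂ :=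
  ![w 0 / p.qfac i, w 1 / p.qfac i, w 2 / p.kfac i]

theorem Rep.toPhi_add (p : Rep m) (i : Idx) (w w' : Fin 3 → ℂ) :
    p.toPhi i (w + w') = p.toPhi i w + p.toPhi i w' := by
  funext k; fin_cases k <;> simp [Rep.toPhi, add_div]

theorem Rep.toPhi_smul (p : Rep m) (i : Idx) (c : ℂ) (w : Fin 3 → ℂ) :
    p.toPhi i (c • w) = c • p.toPhi i w := by
  funext k; fin_cases k <;> simp [Rep.toPhi, mul_div_assoc]

theorem Rep.toPhi_inj {p : Rep m} {i : Idx} (hi : p.InBase i) {w w' : Fin 3 → ℂ}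
    (h : p.toPhi i w = p.toPhi i w') : w = w' := by
  have hq := Rep.qfac_ne hi
  have hk := Rep.kfac_ne hi
  have h0 := congrFun h 0
  have h1 := congrFun h 1
  have h2 := congrFun h 2
  simp only [Rep.toPhi, Matrix.cons_val_zero, Matrix.cons_val_one, Matrix.cons_val] at h0 h1 h2
  rw [div_left_inj' hq] at h0 h1
  rw [div_left_inj' hk] at h2
  funext k; fin_cases k <;> assumption

/-- A downstairs section evaluated upstairs, in the trivialisation `i`. -/
def pullSec (Φ : Alg.SecFun) (p : Rep m) (i : Idx) (w : Fin 3 → ℂ) : ℂ :=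
  Φ i.2.1 p.zpow' p.spow' p.u p.v (p.toPhi i w)

theorem pullSec_rel {k α β : ℕ} {Φ : Alg.SecFun} (hΦ : Alg.IsSection k α β Φ) (hm : 1 ≤ m)
    {p q : Rep m} {a b e : ℂ} (ha : a ≠ 0) (hb : b ≠ 0) (he : e ^ 2 = 1)
    (h1 : q.z = a • p.z) (h2 : q.s = b • p.s)
    (h3 : q.u = e * b ^ (3 * m) * p.u) (h4 : q.v = e * b ^ (3 * m) * p.v)
    {i : Idx} (hi : p.InBase i) (w : Fin 3 → ℂ) :
    pullSec Φ q i w = a ^ (m * α) * b ^ (m * β) / (a * b) ^ k * pullSec Φ p i w := by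
  set A := a ^ m with hA
  set B := b ^ m with hB
  have hA0 : A ≠ 0 := pow_ne_zero _ ha
  have hB0 : B ≠ 0 := pow_ne_zero _ hb
  have hz : q.zpow' = A • p.zpow' := by
    funext k; simp [Rep.zpow', h1, mul_pow, hA]
  have hs : q.spow' = B • p.spow' := by
    funext k; simp [Rep.spow', h2, mul_pow, hB]
  set φ := p.toPhi i w with hφ
  have ht : p.spow' i.2.1 ≠ 0 := Rep.spow'_ne hi
  have hcone := p.onCone
  have hee : e = 1 ∨ e = -1 := sq_eq_one_iff.mp he
  set ψ : Fin 3 → ℂ := ![φ 0 / B ^ 2, φ 1 / B ^ 2, B * φ 2] with hψ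
  have hcone2 : Alg.OnCone p.zpow' (B • p.spow') (B ^ 3 * p.u) (B ^ 3 * p.v) := by
    refine ⟨hcone.hz, ?_, ?_, ?_⟩
    · exact smul_ne_zero hB0 hcone.ht
    · rw [mul_pow, hcone.hu]; simp only [Pi.smul_apply, smul_eq_mul, mul_pow]; ring
    · rw [mul_pow, hcone.hv]; simp only [Pi.smul_apply, smul_eq_mul, mul_pow]; ring
  have ht2 : (B • p.spow') i.2.1 ≠ 0 := mul_ne_zero hB0 ht
  have hsgn : Alg.OnCone p.zpow' (B • p.spow') (e * (B ^ 3 * p.u)) (e * (B ^ 3 * p.v)) := by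
    refine ⟨hcone2.hz, hcone2.ht, ?_, ?_⟩
    · rw [mul_pow, he, one_mul]; exact hcone2.hu
    · rw [mul_pow, he, one_mul]; exact hcone2.hv
  have step1 := hΦ.weight_t i.2.1 p.zpow' p.spow' p.u p.v hcone ht B hB0 φ
  have step2 : Φ i.2.1 p.zpow' (B • p.spow') (e * (B ^ 3 * p.u)) (e * (B ^ 3 * p.v))
      ![e * ψ 0, e * ψ 1, ψ 2] = Φ i.2.1 p.zpow' (B • p.spow') (B ^ 3 * p.u) (B ^ 3 * p.v) ψ := by
    rcases hee with rfl | rfl
    · simp only [one_mul]
      rfl
    · simp only [neg_one_mul]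
      exact hΦ.sign i.2.1 p.zpow' (B • p.spow') _ _ hcone2 ht2 ψ
  have step3 := hΦ.weight_z i.2.1 p.zpow' (B • p.spow') _ _ hsgn ht2 A hA0
    ![e * ψ 0, e * ψ 1, ψ 2]
  have hcone4 : Alg.OnCone (A • p.zpow') (B • p.spow') (e * (B ^ 3 * p.u)) (e * (B ^ 3 * p.v)) :=
    ⟨smul_ne_zero hA0 hcone.hz, hsgn.ht, hsgn.hu, hsgn.hv⟩
  have step4 := hΦ.homog i.2.1 (A • p.zpow') (B • p.spow') _ _ hcone4 ht2 (a * b)⁻¹
    ![(![e * ψ 0, e * ψ 1, ψ 2] : Fin 3 → ℂ) 0, (![e * ψ 0, e * ψ 1, ψ 2] : Fin 3 → ℂ) 1,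
      (![e * ψ 0, e * ψ 1, ψ 2] : Fin 3 → ℂ) 2 / A ^ 4]
  rw [step3, step2, hψ, step1] at step4
  have hu : q.u = e * (B ^ 3 * p.u) := by rw [h3, hB, ← pow_mul, Nat.mul_comm m 3]; ring
  have hv : q.v = e * (B ^ 3 * p.v) := by rw [h4, hB, ← pow_mul, Nat.mul_comm m 3]; ring
  have he' : e⁻¹ = e := inv_eq_of_mul_eq_one_left (by rw [← sq]; exact he)
  have hphi : q.toPhi i w = (a * b)⁻¹ • ![(![e * ψ 0, e * ψ 1, ψ 2] : Fin 3 → ℂ) 0,
      (![e * ψ 0, e * ψ 1, ψ 2] : Fin 3 → ℂ) 1,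
      (![e * ψ 0, e * ψ 1, ψ 2] : Fin 3 → ℂ) 2 / A ^ 4] := by
    obtain ⟨l, rfl⟩ := Nat.exists_eq_add_of_le hm
    funext k
    unfold Rep.toPhi
    rw [Rep.qfac_rel hb h1 h2 h3 h4, Rep.kfac_rel h1 h2, show 1 + l - 1 = l by omega]
    have he0 : e ≠ 0 := by rintro rfl; norm_num at he
    fin_cases k <;> simp [hψ, hφ, Rep.toPhi, hA, hB] <;> field_simp <;> (try simp only [he]) <;> ring
  unfold pullSec
  rw [hz, hs, hu, hv, hphi, hψ]
  refine step4.trans ?_
  rw [← hφ, inv_pow, pow_mul, pow_mul]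
  ring

theorem Rep.toPhi_trans {p : Rep m} {i j : Idx} (hi : p.InBase i) (w : Fin 3 → ℂ) :
    p.toPhi i (fun a => ∑ b, w b * (p.trans i j).mulVec (Pi.single a 1) b) =
      ![p.toPhi j w 0 + p.toPhi j w 2 * (p.dfac i.2.1 j.2.1 * p.u),
        p.toPhi j w 1 + p.toPhi j w 2 * (p.dfac i.2.1 j.2.1 * p.v),
        p.toPhi j w 2] := by
  have hq := Rep.qfac_ne hi
  have hk := Rep.kfac_ne hi
  funext k
  simp only [Matrix.mulVec_single_one]
  fin_cases k <;> simp [Rep.toPhi, Rep.trans, Fin.sum_univ_three] <;> field_simp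

theorem pullSec_compat {k α β : ℕ} {Φ : Alg.SecFun} (hΦ : Alg.IsSection k α β Φ)
    {p : Rep m} {i j : Idx} (hi : p.InBase i) (hj : p.InBase j) (w : Fin 3 → ℂ) :
    pullSec Φ p i (fun a => ∑ b, w b * (p.trans i j).mulVec (Pi.single a 1) b) =
      pullSec Φ p j w := by
  unfold pullSec
  rw [Rep.toPhi_trans hi]
  set φ := p.toPhi j w
  have hcone := p.onCone
  have hti : p.spow' i.2.1 ≠ 0 := Rep.spow'_ne hi
  have htj : p.spow' j.2.1 ≠ 0 := Rep.spow'_ne hj
  revert hti htj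
  generalize i.2.1 = b
  generalize j.2.1 = b'
  intro hti htj
  by_cases hbb : b = b'
  · subst hbb
    have hd : p.dfac b b = 0 := by simp [Rep.dfac]
    simp only [hd, zero_mul, mul_zero, add_zero]
    congr 1
  · by_cases h0 : b = 0
    · subst h0
      have hb' : b' = 1 := by
        fin_cases b'
        · exact absurd rfl hbb
        · rfl
      subst hb'
      have hd : p.dfac 0 1 = Alg.dD p.zpow' p.spow' := by
        simp [Rep.dfac]
        rfl
      rw [hd, ← hΦ.compat _ _ _ _ hcone hti htj]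
      congr 1
      funext k; fin_cases k <;> simp <;> ring
    · have hb : b = 1 := by
        fin_cases b
        · exact absurd rfl h0
        · rfl
      subst hb
      have hb' : b' = 0 := by
        fin_cases b'
        · rfl
        · exact absurd rfl hbb
      subst hb'
      have hd : p.dfac 1 0 = - Alg.dD p.zpow' p.spow' := by
        simp [Rep.dfac]
        rfl
      rw [hd, ← hΦ.compat _ _ _ _ hcone htj hti φ]
      congr 1
      funext k; fin_cases k <;> simp <;> ring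

theorem pullSec_linear {α β : ℕ} {Φ : Alg.SecFun} (hΦ : Alg.IsSection 1 α β Φ) {p : Rep m}
    {i : Idx} (hi : p.InBase i) :
    ∃ f : (Fin 3 → ℂ) →L[ℂ] ℂ, ∀ w, pullSec Φ p i w = f w := by
  obtain ⟨P, N, hP⟩ := hΦ.rational i.2.1
  have hcone := p.onCone
  have ht := Rep.spow'_ne hi
  have hev : (fun w => pullSec Φ p i w) = fun w =>
      MvPolynomial.eval (Alg.vars p.zpow' p.spow' p.u p.v (p.toPhi i w)) P /
        p.spow' i.2.1 ^ N := funext fun w => hP _ _ _ _ hcone ht _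
  have hd : DifferentiableAt ℂ (fun w => pullSec Φ p i w) 0 := by
    rw [hev]
    have hv : ∀ k, DifferentiableAt ℂ
        (fun w => Alg.vars p.zpow' p.spow' p.u p.v (p.toPhi i w) k) 0 := by
      intro k
      fin_cases k <;> simp [Alg.vars, Rep.toPhi] <;> fun_prop
    simp only [div_eq_mul_inv]
    refine DifferentiableAt.mul_const ?_ _
    clear hP hev
    induction P using MvPolynomial.induction_on with
    | C a => simp
    | add P Q h1 h2 => simp only [map_add]; exact h1.add h2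
    | mul_X P k h1 => simp only [map_mul, MvPolynomial.eval_X]; exact h1.mul (hv k)
  refine ⟨fderiv ℂ (fun w => pullSec Φ p i w) 0, homogeneous_one_eq_fderiv hd fun c w => ?_⟩
  show pullSec Φ p i (c • w) = c * pullSec Φ p i w
  unfold pullSec
  rw [Rep.toPhi_smul, hΦ.homog _ _ _ _ _ hcone ht, pow_one]

end Vale.Agent.P296
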