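import Mathlib
import Vale.Agent.P296.Bundle.Ample

/-! `E m` is ample: the embedding of its projective bundle. -/

open Set
open scoped Manifold ContDiff Topology

noncomputable section

namespace Vale.Agent.P296

variable {m : ℕ}

/-- A product section: monomial, high degree section, degree one section. -/
def tripleSec (A B : ℕ) (P L : Alg.SecFun) (l : MonoIdx m A B) (p : Rep m) (i : Idx)
    (w : Fin 3 → ℂ) : ℂ :=
  p.mono A B l * (pullSec P p i w * pullSec L p i w)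

theorem eval_contDiffAt {V : Type*} [NormedAddCommGroup V] [NormedSpace ℂ V] {σ : Type*}
    (P : MvPolynomial σ ℂ) {f : V → σ → ℂ} {x : V}
    (hf : ∀ k, ContDiffAt ℂ ω (fun y => f y k) x) :
    ContDiffAt ℂ ω (fun y => MvPolynomial.eval (f y) P) x := by
  induction P using MvPolynomial.induction_on with
  | C a => simpa using contDiffAt_const
  | add P Q h1 h2 => simp only [map_add]; exact h1.add h2
  | mul_X P k h1 => simp only [map_mul, MvPolynomial.eval_X]; exact h1.mul (hf k)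

section Geometry

variable [ChartedSpace (Cn 2) (X m)]


theorem contMDiffAt_pullSec {k α β : ℕ} {Φ : Alg.SecFun} (hΦ : Alg.IsSection k α β Φ)
    {U : Set (X m)} (hU : IsOpen U) {Lf : X m → Rep m} (hpt : ∀ y ∈ U, (Lf y).pt = y)
    (hL : ContMDiffOn 𝓘(ℂ, Cn 2) 𝓘(ℂ, T) ω (fun y => (Lf y).tuple) U) {i : Idx} {x : X m}
    (hx : x ∈ U) (hxi : x ∈ baseSet m i) (w : Fin 3 → ℂ) :
    ContMDiffAt (𝓘(ℂ, Cn 2).prod 𝓘(ℂ, Fin 3 → ℂ)) 𝓘(ℂ, ℂ) ω
      (fun q : X m × (Fin 3 → ℂ) => pullSec Φ (Lf q.1) i q.2) (x, w) := by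
  obtain ⟨P, N, hP⟩ := hΦ.rational i.2.1
  have hi : (Lf x).InBase i := (inBase_iff (hpt x hx) i).mpr hxi
  let q : T × (Fin 3 → ℂ) → Fin 9 → ℂ := fun t =>
    Alg.vars (fun k => t.1.1 k ^ m) (fun k => t.1.2.1 k ^ m) t.1.2.2.1 t.1.2.2.2
      ![t.2 0 / (t.1.1 i.1 * t.1.2.1 i.2.1 ^ (2 * m + 1) *
          ((if i.2.2 = 0 then t.1.2.2.1 else t.1.2.2.2) / t.1.2.1 i.2.1 ^ (3 * m))),
        t.2 1 / (t.1.1 i.1 * t.1.2.1 i.2.1 ^ (2 * m + 1) *
          ((if i.2.2 = 0 then t.1.2.2.1 else t.1.2.2.2) / t.1.2.1 i.2.1 ^ (3 * m))),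
        t.2 2 / (t.1.1 i.1 ^ (4 * m + 1) / t.1.2.1 i.2.1 ^ (m - 1))]
  set t0 : T × (Fin 3 → ℂ) := ((Lf x).tuple, w) with ht0
  have hs : t0.1.2.1 i.2.1 ≠ 0 := hi.2.1
  have hq0 : t0.1.1 i.1 * t0.1.2.1 i.2.1 ^ (2 * m + 1) *
      ((if i.2.2 = 0 then t0.1.2.2.1 else t0.1.2.2.2) / t0.1.2.1 i.2.1 ^ (3 * m)) ≠ 0 :=
    Rep.qfac_ne hi
  have hk0 : t0.1.1 i.1 ^ (4 * m + 1) / t0.1.2.1 i.2.1 ^ (m - 1) ≠ 0 := Rep.kfac_ne hi
  have pz : ∀ k, ContDiffAt ℂ ω (fun t : T × (Fin 3 → ℂ) => t.1.1 k) t0 := fun k => by fun_prop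
  have ps : ∀ k, ContDiffAt ℂ ω (fun t : T × (Fin 3 → ℂ) => t.1.2.1 k) t0 :=
    fun k => by fun_prop
  have pw : ∀ k, ContDiffAt ℂ ω (fun t : T × (Fin 3 → ℂ) => t.2 k) t0 := fun k => by fun_prop
  have pu : ContDiffAt ℂ ω (fun t : T × (Fin 3 → ℂ) => t.1.2.2.1) t0 := by fun_prop
  have pv : ContDiffAt ℂ ω (fun t : T × (Fin 3 → ℂ) => t.1.2.2.2) t0 := by fun_prop
  have pc : ContDiffAt ℂ ω
      (fun t : T × (Fin 3 → ℂ) => if i.2.2 = 0 then t.1.2.2.1 else t.1.2.2.2) t0 := by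
    by_cases hc : i.2.2 = 0 <;> simp only [hc, if_true, if_false] <;> assumption
  have pq : ContDiffAt ℂ ω (fun t : T × (Fin 3 → ℂ) => t.1.1 i.1 * t.1.2.1 i.2.1 ^ (2 * m + 1) *
      ((if i.2.2 = 0 then t.1.2.2.1 else t.1.2.2.2) / t.1.2.1 i.2.1 ^ (3 * m))) t0 :=
    ((pz _).mul ((ps _).pow _)).mul (pc.div ((ps _).pow _) (pow_ne_zero _ hs))
  have pk : ContDiffAt ℂ ω
      (fun t : T × (Fin 3 → ℂ) => t.1.1 i.1 ^ (4 * m + 1) / t.1.2.1 i.2.1 ^ (m - 1)) t0 :=
    ((pz _).pow _).div ((ps _).pow _) (pow_ne_zero _ hs)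
  have hq : ∀ k, ContDiffAt ℂ ω (fun t => q t k) t0 := by
    intro k
    fin_cases k <;> simp [q, Alg.vars]
    · exact (pz 0).pow m
    · exact (pz 1).pow m
    · exact (ps 0).pow m
    · exact (ps 1).pow m
    · exact pu
    · exact pv
    · exact (pw 0).div pq hq0
    · exact (pw 1).div pq hq0
    · exact (pw 2).div pk hk0
  have hG : ContDiffAt ℂ ω (fun t : T × (Fin 3 → ℂ) =>
      MvPolynomial.eval (q t) P / (t.1.2.1 i.2.1 ^ m) ^ N) t0 :=
    (eval_contDiffAt P hq).div (((ps _).pow m).pow N) (pow_ne_zero _ (pow_ne_zero _ hs))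
  have hLx : ContMDiffAt 𝓘(ℂ, Cn 2) 𝓘(ℂ, T) ω (fun y => (Lf y).tuple) x :=
    hL.contMDiffAt (hU.mem_nhds hx)
  have hmap : ContMDiffAt (𝓘(ℂ, Cn 2).prod 𝓘(ℂ, Fin 3 → ℂ)) 𝓘(ℂ, T × (Fin 3 → ℂ)) ω
      (fun p : X m × (Fin 3 → ℂ) => ((Lf p.1).tuple, p.2)) (x, w) :=
    (hLx.comp (x, w) contMDiffAt_fst).prodMk_space contMDiffAt_snd
  refine (hG.contMDiffAt.comp (x, w) hmap).congr_of_eventuallyEq ?_
  have hnhds : (U ∩ baseSet m i) ×ˢ (univ : Set (Fin 3 → ℂ)) ∈ 𝓝 (x, w) :=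
    ((hU.inter (isOpen_baseSet i)).prod isOpen_univ).mem_nhds ⟨⟨hx, hxi⟩, trivial⟩
  filter_upwards [hnhds] with p hp
  have hb : (Lf p.1).InBase i := (inBase_iff (hpt _ hp.1.1) i).mpr hp.1.2
  exact hP _ _ _ _ (Rep.onCone _) (Rep.spow'_ne hb) _

theorem isAmple_bundle (hm : 1 ≤ m) (hg : GeomSpec m) (core : Alg.Core) :
    IsAmple 2 (bundle hm hg) := by
  have := hg.connected
  set α := Alg.alpha
  set β := Alg.beta
  set k := 2 * m * (α + β) + 6 * m + 1 with hk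
  set A := k + 1 - 2 * (m * α) with hA
  set B := k + 1 - 2 * (m * β) with hB
  have hexp : 2 * m * (α + β) = 2 * (m * α) + 2 * (m * β) := by ring
  have hA1 : 1 ≤ A := by omega
  have hB1 : 6 * m + 1 ≤ B := by omega
  obtain ⟨nP, famP, hsP, hzP⟩ := core k (by omega)
  obtain ⟨nL, famL, hsL, hzL⟩ := core 1 le_rfl
  let F : Fin nP × Fin nL × MonoIdx m A B → Rep m → Idx → (Fin 3 → ℂ) → ℂ :=
    fun j => tripleSec A B (famP j.1) (famL j.2.1) j.2.2
  -- invariance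
  have hinv : ∀ j (p q : Rep m) i w, Rep.Rel p q → p.InBase i → F j q i w = F j p i w := by
    rintro j p q i w ⟨a, b, e, ha, hb, he, h1, h2, h3, h4⟩ hi
    simp only [F, tripleSec]
    rw [Rep.mono_rel he h1 h2 h3 h4 (by omega),
      pullSec_rel (hsP j.1) hm ha hb he h1 h2 h3 h4 hi,
      pullSec_rel (hsL j.2.1) hm ha hb he h1 h2 h3 h4 hi]
    have ea : a ^ A * (a ^ (m * α) * a ^ (m * α)) = a ^ (k + 1) := by
      rw [← pow_add, ← pow_add]; congr 1; omega
    have eb : b ^ B * (b ^ (m * β) * b ^ (m * β)) = b ^ (k + 1) := by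
      rw [← pow_add, ← pow_add]; congr 1; omega
    have hab : (a * b) ^ (k + 1) ≠ 0 := pow_ne_zero _ (mul_ne_zero ha hb)
    calc _ = (a ^ A * (a ^ (m * α) * a ^ (m * α))) * (b ^ B * (b ^ (m * β) * b ^ (m * β))) /
          (a * b) ^ (k + 1) * (p.mono A B j.2.2 *
            (pullSec (famP j.1) p i w * pullSec (famL j.2.1) p i w)) := by
            rw [pow_succ (a * b) k, pow_one]; ring
      _ = _ := by rw [ea, eb, ← mul_pow, div_self hab, one_mul]
  -- evaluation through any representative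
  have hrep : ∀ j i (x : X m) (p : Rep m), p.pt = x → x ∈ baseSet m i → ∀ w,
      F j (X.rep x) i w = F j p i w :=
    fun j i x p hp hx w => hinv j p (X.rep x) i w (X.rel_rep hp).symm ((inBase_iff hp i).mpr hx)
  -- no common zero
  have hnz : ∀ (p : Rep m) i, p.InBase i → ∀ w, w ≠ 0 → ∃ a b,
      pullSec (famP a) p i w * pullSec (famL b) p i w ≠ 0 := by
    intro p i hi w hw
    have hφ : p.toPhi i w ≠ 0 := by
      intro h
      refine hw (Rep.toPhi_inj hi (h.trans ?_))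
      funext k; fin_cases k <;> simp [Rep.toPhi]
    obtain ⟨a, ha⟩ := hzP i.2.1 _ _ _ _ p.onCone (Rep.spow'_ne hi) _ hφ
    obtain ⟨b, hb⟩ := hzL i.2.1 _ _ _ _ p.onCone (Rep.spow'_ne hi) _ hφ
    exact ⟨a, b, mul_ne_zero ha hb⟩
  -- degree one sections are linear and jointly injective
  have hlin : ∀ (p : Rep m) i, p.InBase i → ∀ (w w' : Fin 3 → ℂ) (c : ℂ),
      (∀ b, pullSec (famL b) p i w' = c * pullSec (famL b) p i w) → w' = c • w := by
    intro p i hi w w' c h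
    by_contra hne
    have hd : w' - c • w ≠ 0 := sub_ne_zero.mpr hne
    obtain ⟨a, b, hab⟩ := hnz p i hi _ hd
    obtain ⟨f, hf⟩ := pullSec_linear (hsL b) hi
    refine right_ne_zero_of_mul hab ?_
    rw [hf, map_sub, map_smul, smul_eq_mul, ← hf, ← hf, h b, sub_self]
  obtain ⟨N, hN⟩ : ∃ N, Fintype.card (Fin nP × Fin nL × MonoIdx m A B) = N + 1 := by
    obtain ⟨x⟩ := (inferInstance : Nonempty (X m))
    obtain ⟨a, b, -⟩ := hnz (X.rep x) _ (mem_baseSet_at hm x) (fun _ => 1)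
      (fun h => one_ne_zero (congrFun h 0))
    have : Nonempty (Fin nP × Fin nL × MonoIdx m A B) := ⟨(a, b, Classical.arbitrary _)⟩
    exact Nat.exists_eq_succ_of_ne_zero Fintype.card_ne_zero
  let e := Fintype.equivFinOfCardEq hN
  refine ⟨k + 1, N, fun l i x w => F (e.symm l) (X.rep x) i w, by omega, ⟨?_, ?_, ?_⟩, ⟨?_, ?_⟩, ?_⟩
  · -- holomorphic
    intro l i q hq
    obtain ⟨U, Lf, hUo, hxU, hpt, hLs⟩ := hg.local_lift q.1
    have h1 : ContMDiffAt (𝓘(ℂ, Cn 2).prod 𝓘(ℂ, Fin 3 → ℂ)) 𝓘(ℂ, ℂ) ω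
        (fun p : X m × (Fin 3 → ℂ) => F (e.symm l) (Lf p.1) i p.2) q := by
      refine ContMDiffAt.mul ?_ (ContMDiffAt.mul
        (contMDiffAt_pullSec (hsP _) hUo hpt hLs hxU hq.1 q.2)
        (contMDiffAt_pullSec (hsL _) hUo hpt hLs hxU hq.1 q.2))
      exact ((contMDiffOn_mono hLs A B _).contMDiffAt (hUo.mem_nhds hxU)).comp q contMDiffAt_fst
    refine (h1.congr_of_eventuallyEq ?_).contMDiffWithinAt
    have hnhds : (U ∩ baseSet m i) ×ˢ (univ : Set (Fin 3 → ℂ)) ∈ 𝓝 q :=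
      ((hUo.inter (isOpen_baseSet i)).prod isOpen_univ).mem_nhds ⟨⟨hxU, hq.1⟩, trivial⟩
    filter_upwards [hnhds] with p hp
    exact hrep _ _ _ _ (hpt _ hp.1.1) hp.1.2 _
  · -- homogeneous
    intro l i x hx c w
    have ht := Rep.spow'_ne (p := X.rep x) hx
    simp only [F, tripleSec, pullSec, Rep.toPhi_smul]
    rw [(hsP _).homog _ _ _ _ _ (Rep.onCone _) ht, (hsL _).homog _ _ _ _ _ (Rep.onCone _) ht]
    ring
  · -- compatible
    intro l i j x hx w
    unfold pullFun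
    simp only [bundle_coordChange, transX, F, tripleSec]
    rw [pullSec_compat (hsP _) hx.1 hx.2, pullSec_compat (hsL _) hx.1 hx.2]
  · -- no common zero
    intro i x hx w hw
    obtain ⟨a, b, hab⟩ := hnz (X.rep x) i hx w hw
    obtain ⟨mo, hmo⟩ := (X.rep x).mono_ne A B
    exact ⟨e (a, b, mo), by simpa [F, tripleSec] using mul_ne_zero hmo hab⟩
  · -- injective
    rintro i j x y hx hy w w' hw hw' ⟨c, hc⟩
    have hall : ∀ a b mo, F (a, b, mo) (X.rep x) i w = c * F (a, b, mo) (X.rep y) j w' :=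
      fun a b mo => by simpa using hc (e (a, b, mo))
    obtain ⟨a0, b0, hab⟩ := hnz (X.rep x) i hx w hw
    have hxy : x = y := by
      rw [← X.rep_pt x, ← X.rep_pt y]
      refine hg.mono_inj A B hA1 hB1 _ _ (c * (pullSec (famP a0) (X.rep y) j w' *
        pullSec (famL b0) (X.rep y) j w') /
        (pullSec (famP a0) (X.rep x) i w * pullSec (famL b0) (X.rep x) i w)) fun mo => ?_
      have := hall a0 b0 mo
      simp only [F, tripleSec] at this
      rw [div_mul_eq_mul_div, eq_div_iff hab, this]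
      ring
    refine ⟨hxy, ?_⟩
    subst hxy
    set p := X.rep x
    set w'' : Fin 3 → ℂ :=
      fun a => ∑ b, w' b * (bundle hm hg).coordChange i j x (Pi.single a 1) b with hw''
    have hcp : ∀ Φ k α β, Alg.IsSection k α β Φ → pullSec Φ p i w'' = pullSec Φ p j w' := by
      intro Φ k α β hΦ
      simp only [hw'', bundle_coordChange, transX]
      exact pullSec_compat hΦ hx hy w'
    obtain ⟨mo, hmo⟩ := p.mono_ne A B
    have hP0 := left_ne_zero_of_mul hab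
    set c' := c * pullSec (famP a0) p i w'' / pullSec (famP a0) p i w with hc'
    have hb : ∀ b, pullSec (famL b) p i w = c' * pullSec (famL b) p i w'' := by
      intro b
      have := hall a0 b mo
      simp only [F, tripleSec] at this
      rw [hcp _ _ _ _ (hsL b), hc', hcp _ _ _ _ (hsP a0), div_mul_eq_mul_div, eq_div_iff hP0]
      apply mul_left_cancel₀ hmo
      linear_combination this
    have heq := hlin p i hx w'' w c' hb
    have hc0 : c' ≠ 0 := by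
      intro h; rw [h, zero_smul] at heq; exact hw heq
    refine ⟨c'⁻¹, ?_⟩
    show w'' = _
    rw [heq, smul_smul, inv_mul_cancel₀ hc0, one_smul]
  · -- immersive
    intro i x hx w hw ξ η c hc
    obtain ⟨U, Lf, hUo, hxU, hpt, hLs⟩ := hg.local_lift x
    set p := Lf x with hp
    have hi : p.InBase i := (inBase_iff (hpt x hxU) i).mpr hx
    let fm : MonoIdx m A B → X m × (Fin 3 → ℂ) → ℂ := fun mo q => (Lf q.1).mono A B mo
    let fP : Fin nP → X m × (Fin 3 → ℂ) → ℂ := fun a q => pullSec (famP a) (Lf q.1) i q.2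
    let fL : Fin nL → X m × (Fin 3 → ℂ) → ℂ := fun b q => pullSec (famL b) (Lf q.1) i q.2
    let I2 := 𝓘(ℂ, Cn 2).prod 𝓘(ℂ, Fin 3 → ℂ)
    let D : (X m × (Fin 3 → ℂ) → ℂ) → ℂ := fun f => mfderiv I2 𝓘(ℂ, ℂ) f (x, w) (ξ, η)
    have hmono : ∀ mo, MDifferentiableAt 𝓘(ℂ, Cn 2) 𝓘(ℂ, ℂ) (fun y => (Lf y).mono A B mo) x :=
      fun mo => ((contMDiffOn_mono hLs A B mo).contMDiffAt (hUo.mem_nhds hxU)).mdifferentiableAt
        (by simp)
    have dm : ∀ mo, HasMFDerivAt I2 𝓘(ℂ, ℂ) (fm mo) (x, w)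
        ((mfderiv 𝓘(ℂ, Cn 2) 𝓘(ℂ, ℂ) (fun y => (Lf y).mono A B mo) x).comp
          (ContinuousLinearMap.fst ℂ (TangentSpace 𝓘(ℂ, Cn 2) x)
            (TangentSpace 𝓘(ℂ, Fin 3 → ℂ) w))) :=
      fun mo => HasMFDerivAt.comp (x, w) (hmono mo).hasMFDerivAt (hasMFDerivAt_fst (x, w))
    have hDm : ∀ mo, D (fm mo) =
        mfderiv 𝓘(ℂ, Cn 2) 𝓘(ℂ, ℂ) (fun y => (Lf y).mono A B mo) x ξ := by
      intro mo
      show mfderiv I2 𝓘(ℂ, ℂ) (fm mo) (x, w) (ξ, η) = _
      rw [(dm mo).mfderiv]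
      rfl
    have dP : ∀ a, MDifferentiableAt I2 𝓘(ℂ, ℂ) (fP a) (x, w) := fun a =>
      (contMDiffAt_pullSec (hsP a) hUo hpt hLs hxU hx w).mdifferentiableAt (by simp)
    have dL : ∀ b, MDifferentiableAt I2 𝓘(ℂ, ℂ) (fL b) (x, w) := fun b =>
      (contMDiffAt_pullSec (hsL b) hUo hpt hLs hxU hx w).mdifferentiableAt (by simp)
    have key : ∀ a b mo, p.mono A B mo * (pullSec (famP a) p i w * D (fL b) +
        pullSec (famL b) p i w * D (fP a)) +
        pullSec (famP a) p i w * pullSec (famL b) p i w * D (fm mo) =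
        c * (p.mono A B mo * (pullSec (famP a) p i w * pullSec (famL b) p i w)) := by
      intro a b mo
      have h' : ∀ l j, e.symm l = j →
          mfderiv I2 𝓘(ℂ, ℂ) (fun q : X m × (Fin 3 → ℂ) => F j (X.rep q.1) i q.2) (x, w) (ξ, η) =
            c * F j (X.rep x) i w := by
        rintro l j rfl
        exact hc l
      have h := h' _ (a, b, mo) (e.symm_apply_apply _)
      rw [hrep (a, b, mo) i x p (hpt x hxU) hx w] at h
      have hnhds : (U ∩ baseSet m i) ×ˢ (univ : Set (Fin 3 → ℂ)) ∈ 𝓝 (x, w) :=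
        ((hUo.inter (isOpen_baseSet i)).prod isOpen_univ).mem_nhds ⟨⟨hxU, hx⟩, trivial⟩
      have heq : (fun q : X m × (Fin 3 → ℂ) => F (a, b, mo) (X.rep q.1) i q.2) =ᶠ[𝓝 (x, w)]
          fm mo * (fP a * fL b) := by
        filter_upwards [hnhds] with q hq
        exact hrep _ _ _ _ (hpt _ hq.1.1) hq.1.2 _
      have hd := (((dm mo).mdifferentiableAt.hasMFDerivAt).mul
        ((dP a).hasMFDerivAt.mul (dL b).hasMFDerivAt))
      rw [(hd.congr_of_eventuallyEq heq).mfderiv] at h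
      simp only [F, tripleSec] at h
      refine Eq.trans ?_ h
      show _ = p.mono A B mo • (pullSec (famP a) p i w • D (fL b) +
        pullSec (famL b) p i w • D (fP a)) +
        (pullSec (famP a) p i w * pullSec (famL b) p i w) • D (fm mo)
      simp only [smul_eq_mul]
    obtain ⟨a0, b0, hab⟩ := hnz p i hi w hw
    have hξ : ξ = 0 := by
      refine hg.mono_immersive A B hA1 hB1 U Lf hUo hpt hLs x hxU ξ
        (c - (pullSec (famP a0) p i w * D (fL b0) + pullSec (famL b0) p i w * D (fP a0)) /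
          (pullSec (famP a0) p i w * pullSec (famL b0) p i w)) fun mo => ?_
      have solve : ∀ d M P L dL' dP' : ℂ, P * L ≠ 0 →
          M * (P * dL' + L * dP') + P * L * d = c * (M * (P * L)) →
          d = (c - (P * dL' + L * dP') / (P * L)) * M := by
        intro d M P L dL' dP' hne h
        rw [sub_mul, div_mul_eq_mul_div, eq_sub_iff_add_eq]
        obtain ⟨hP, hL⟩ := mul_ne_zero_iff.mp hne
        field_simp
        linear_combination h
      exact (hDm mo).symm.trans (solve _ _ _ _ _ _ hab (key a0 b0 mo))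
    refine ⟨hξ, ?_⟩
    obtain ⟨mo, hmo⟩ := p.mono_ne A B
    have hDm0 : D (fm mo) = 0 := by rw [hDm mo, hξ]; exact map_zero _
    have hP0 := left_ne_zero_of_mul hab
    have hDL : ∀ b, D (fL b) = pullSec (famL b) p i η := by
      intro b
      obtain ⟨f, hf⟩ := pullSec_linear (hsL b) hi
      have hins : HasMFDerivAt 𝓘(ℂ, Fin 3 → ℂ) I2 (fun w' : Fin 3 → ℂ => (x, w')) w
          ((0 : TangentSpace 𝓘(ℂ, Fin 3 → ℂ) w →L[ℂ] TangentSpace 𝓘(ℂ, Cn 2) x).prod
            (ContinuousLinearMap.id ℂ (TangentSpace 𝓘(ℂ, Fin 3 → ℂ) w))) :=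
        (hasMFDerivAt_const x w).prodMk (hasMFDerivAt_id w)
      have h2 := HasMFDerivAt.comp w (dL b).hasMFDerivAt hins
      have h3 : (fL b ∘ fun w' : Fin 3 → ℂ => (x, w')) = f := funext fun w' => hf w'
      rw [h3] at h2
      have h4 := hasMFDerivAt_unique h2 f.hasMFDerivAt
      have h5 := DFunLike.congr_fun h4 η
      show mfderiv I2 𝓘(ℂ, ℂ) (fL b) (x, w) (ξ, η) = _
      rw [hξ, hf η]
      exact h5
    refine ⟨c - D (fP a0) / pullSec (famP a0) p i w, hlin p i hi w η _ fun b => ?_⟩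
    have solve : ∀ d M P L dP' : ℂ, M ≠ 0 → P ≠ 0 →
        M * (P * d + L * dP') + P * L * 0 = c * (M * (P * L)) → d = (c - dP' / P) * L := by
      intro d M P L dP' hM hP h
      rw [sub_mul, div_mul_eq_mul_div, eq_sub_iff_add_eq]
      field_simp
      apply mul_left_cancel₀ hM
      linear_combination h
    have hk0 := key a0 b mo
    rw [hDm0] at hk0
    exact (hDL b).symm.trans (solve _ _ _ _ _ hmo hP0 hk0)

end Geometry

end Vale.Agent.P296
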